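import Mathlib
import Vale.Agent.P080.Defs
import Vale.Agent.P080.Liouville

open scoped RealInnerProductSpace

namespace Vale.Agent.Results.P080.SublinearLiouville

open Vale.Agent.P080

/-- A dimension-free Liouville theorem: an entire infinity-harmonic function bounded on one side
by an affine function up to a small power of the distance is affine. -/
theorem result :
    ∃ β : ℝ, 0 < β ∧ ∀ (d : ℕ) (u : EuclideanSpace ℝ (Fin d) → ℝ) (p : EuclideanSpace ℝ (Fin d))
      (C : ℝ), IsInfHarmonic u →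
      ((∀ x, ⟪p, x⟫ - C * (1 + ‖x‖) ^ β ≤ u x) ∨ (∀ x, u x ≤ ⟪p, x⟫ + C * (1 + ‖x‖) ^ β)) →
      ∀ x, u x = u 0 + ⟪p, x⟫ :=
  ⟨expo, expo_bounds.1, fun _ _ _ _ hu h x => affine_of_one_sided hu h x⟩

end Vale.Agent.Results.P080.SublinearLiouville
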